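import Mathlib
import Vale.Agent.Lib.P335.helper26.ThreeDefs

/-!
Functions on three-row margin matrices that are invariant under all transpositions of
equal-sum columns depend only on the hole counts (P335, job B3b of helper26).

* `swap_chain` : an abstract chain-of-column-swaps principle for a column colouring `κ`.
* `inv_factor` : the two factorisation statements.
-/

namespace Vale.Agent.Lib.P335.Bip

open Finset

namespace H63

/-- Chain-of-swaps principle.  Let `κ z j` be a colour of the column `j` of the matrix `z` that
is transported by column transpositions and determines the column sum.  If the colourings of `x`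
and `y` have the same class sizes, then `y` can be moved by transpositions of equal-sum columns
to a matrix `y'` with the same colouring as `x`; in particular every function invariant under
such transpositions takes the same value at `y'` and `y`. -/
theorem swap_chain {m n : ℕ} {r : Fin m → ℕ} {c : Fin n → ℕ} {K : Type*} [DecidableEq K]
    (κ : Om m n r c → Fin n → K)
    (hκ : ∀ (u u' : Fin n) (h : c u = c u') (x : Om m n r c) (j : Fin n),
      κ (swapOm u u' h x) j = κ x (Equiv.swap u u' j))
    (hc : ∀ (x y : Om m n r c) (u u' : Fin n), κ x u = κ y u' → c u = c u')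
    (F : Om m n r c → ℝ)
    (hinv : ∀ (u u' : Fin n) (h : c u = c u') (x : Om m n r c), F (swapOm u u' h x) = F x)
    (x : Om m n r c) :
    ∀ (d : ℕ) (y : Om m n r c),
      (univ.filter (fun j => κ x j ≠ κ y j)).card ≤ d →
      (∀ k, (univ.filter (fun j => κ x j = k)).card = (univ.filter (fun j => κ y j = k)).card) →
      ∃ y' : Om m n r c, κ y' = κ x ∧ F y' = F y := by
  intro d
  induction d with
  | zero =>
    intro y hd _
    refine ⟨y, ?_, rfl⟩
    funext j
    by_contra hne
    have hmem : j ∈ univ.filter (fun j => κ x j ≠ κ y j) := by
      simp only [mem_filter, mem_univ, true_and]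
      exact fun h => hne h.symm
    have hpos : 0 < (univ.filter (fun j => κ x j ≠ κ y j)).card := card_pos.mpr ⟨j, hmem⟩
    omega
  | succ d ih =>
    intro y hd hcount
    by_cases hall : ∀ j, κ x j = κ y j
    · exact ⟨y, funext (fun j => (hall j).symm), rfl⟩
    · push Not at hall
      obtain ⟨u, hu⟩ := hall
      have hAB : (univ.filter (fun j => κ x j = κ x u)).card
          = (univ.filter (fun j => κ y j = κ x u)).card := hcount (κ x u)
      have huA : u ∈ univ.filter (fun j => κ x j = κ x u) \ univ.filter (fun j => κ y j = κ x u) := by
        simp only [mem_sdiff, mem_filter, mem_univ, true_and]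
        exact fun h => hu h.symm
      have hBA : (univ.filter (fun j => κ y j = κ x u) \ univ.filter (fun j => κ x j = κ x u)).card
          = (univ.filter (fun j => κ x j = κ x u) \ univ.filter (fun j => κ y j = κ x u)).card := by
        have h1 := card_sdiff_add_card_inter (univ.filter (fun j => κ x j = κ x u))
          (univ.filter (fun j => κ y j = κ x u))
        have h2 := card_sdiff_add_card_inter (univ.filter (fun j => κ y j = κ x u))
          (univ.filter (fun j => κ x j = κ x u))
        rw [inter_comm] at h2
        omega
      have hpos : 0 < (univ.filter (fun j => κ y j = κ x u)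
          \ univ.filter (fun j => κ x j = κ x u)).card := by
        rw [hBA]
        exact card_pos.mpr ⟨u, huA⟩
      obtain ⟨u', hu'⟩ := card_pos.mp hpos
      simp only [mem_sdiff, mem_filter, mem_univ, true_and] at hu'
      obtain ⟨hyu', hxu'⟩ := hu'
      have hcu : c u = c u' := hc x y u u' hyu'.symm
      have hlt : (univ.filter (fun j => κ x j ≠ κ (swapOm u u' hcu y) j)).card ≤ d := by
        have hsub : univ.filter (fun j => κ x j ≠ κ (swapOm u u' hcu y) j) ⊆
            (univ.filter (fun j => κ x j ≠ κ y j)).erase u := by
          intro j hj
          simp only [mem_filter, mem_univ, true_and, hκ] at hj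
          simp only [mem_erase, mem_filter, mem_univ, true_and]
          rcases eq_or_ne j u with rfl | hju
          · rw [Equiv.swap_apply_left] at hj
            exact absurd hyu'.symm hj
          · refine ⟨hju, ?_⟩
            rcases eq_or_ne j u' with rfl | hju'
            · rw [hyu']
              exact hxu'
            · rwa [Equiv.swap_apply_of_ne_of_ne hju hju'] at hj
        have hle := card_le_card hsub
        have hmem : u ∈ univ.filter (fun j => κ x j ≠ κ y j) := by
          simp only [mem_filter, mem_univ, true_and]
          exact hu
        rw [card_erase_of_mem hmem] at hle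
        have hpos' : 0 < (univ.filter (fun j => κ x j ≠ κ y j)).card := card_pos.mpr ⟨u, hmem⟩
        omega
      have hcount' : ∀ k, (univ.filter (fun j => κ x j = k)).card
          = (univ.filter (fun j => κ (swapOm u u' hcu y) j = k)).card := by
        intro k
        rw [hcount k]
        symm
        apply Finset.card_equiv (Equiv.swap u u')
        intro j
        simp only [mem_filter, mem_univ, true_and, hκ]
      obtain ⟨y', hy', hFy'⟩ := ih (swapOm u u' hcu y) hlt hcount'
      exact ⟨y', hy', hFy'.trans (hinv u u' hcu y)⟩

/-- A column of sum `0` lies in no row. -/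
theorem not_mem_of_colSum_eq_zero {m n : ℕ} (x : Mat m n) (j : Fin n) (h : colSum x j = 0)
    (l : Fin m) : j ∉ x l := by
  intro hj
  unfold colSum at h
  rw [Finset.card_eq_zero] at h
  have : l ∈ univ.filter (fun i => j ∈ x i) := by
    simp only [mem_filter, mem_univ, true_and]
    exact hj
  rw [h] at this
  exact absurd this (Finset.notMem_empty l)

/-- A column of sum `3` of a three-row matrix lies in every row. -/
theorem mem_of_colSum_eq_three {n : ℕ} (x : Mat 3 n) (j : Fin n) (h : colSum x j = 3)
    (l : Fin 3) : j ∈ x l := by
  unfold colSum at h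
  have h3 : (univ.filter (fun i : Fin 3 => j ∈ x i)).card = Fintype.card (Fin 3) := by
    rw [h, Fintype.card_fin]
  rw [Finset.card_eq_iff_eq_univ] at h3
  have : l ∈ univ.filter (fun i : Fin 3 => j ∈ x i) := by
    rw [h3]
    exact mem_univ l
  simpa only [mem_filter, mem_univ, true_and] using this

theorem colSum_le_three {n : ℕ} (x : Mat 3 n) (j : Fin n) : colSum x j ≤ 3 := by
  unfold colSum
  have := Finset.card_le_univ (univ.filter (fun i : Fin 3 => j ∈ x i))
  rwa [Fintype.card_fin] at this

/-- Columns whose sum is neither `1` nor `2` have the same entries in all matrices. -/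
theorem mem_iff_of_ne {n : ℕ} {r : Fin 3 → ℕ} {c : Fin n → ℕ} (x y : Om 3 n r c) (l : Fin 3)
    (j : Fin n) (h1 : c j ≠ 1) (h2 : c j ≠ 2) : j ∈ x.1 l ↔ j ∈ y.1 l := by
  have hx := x.2.2 j
  have hy := y.2.2 j
  have hle := colSum_le_three x.1 j
  have h03 : c j = 0 ∨ c j = 3 := by omega
  rcases h03 with h0 | h3
  · have a := not_mem_of_colSum_eq_zero x.1 j (hx.trans h0) l
    have b := not_mem_of_colSum_eq_zero y.1 j (hy.trans h0) l
    exact ⟨fun h => absurd h a, fun h => absurd h b⟩
  · have a := mem_of_colSum_eq_three x.1 j (hx.trans h3) l
    have b := mem_of_colSum_eq_three y.1 j (hy.trans h3) l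
    exact ⟨fun _ => b, fun _ => a⟩

/-- Sum-two columns in row `l` are counted by the hole count. -/
theorem card_two_add_hcnt {n : ℕ} {r : Fin 3 → ℕ} {c : Fin n → ℕ} (x : Om 3 n r c) (l : Fin 3) :
    ((x.1 l).filter (fun j => c j = 2)).card + hcnt c x.1 l = ncol c 2 := by
  have h := Finset.card_filter_add_card_filter_not
    (s := univ.filter (fun j : Fin n => c j = 2)) (fun j => j ∈ x.1 l)
  have e1 : (univ.filter (fun j : Fin n => c j = 2)).filter (fun j => j ∈ x.1 l)
      = (x.1 l).filter (fun j => c j = 2) := by
    ext j
    simp only [mem_filter, mem_univ, true_and]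
    tauto
  have e2 : (univ.filter (fun j : Fin n => c j = 2)).filter (fun j => ¬ j ∈ x.1 l)
      = univ.filter (fun j => c j = 2 ∧ j ∉ x.1 l) := by
    ext j
    simp only [mem_filter, mem_univ, true_and]
  rw [e1, e2] at h
  unfold hcnt ncol
  exact h

/-- Three-way splitting of a row by the column sums. -/
theorem card_row_split {n : ℕ} (c : Fin n → ℕ) (s : Finset (Fin n)) :
    (s.filter (fun j => c j = 1)).card + (s.filter (fun j => c j = 2)).card
      + (s.filter (fun j => c j ≠ 1 ∧ c j ≠ 2)).card = s.card := by
  have h1 := Finset.card_filter_add_card_filter_not (s := s) (fun j => c j = 1)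
  have h2 := Finset.card_filter_add_card_filter_not
    (s := s.filter (fun j => ¬ c j = 1)) (fun j => c j = 2)
  have e1 : (s.filter (fun j => ¬ c j = 1)).filter (fun j => c j = 2)
      = s.filter (fun j => c j = 2) := by
    ext j
    simp only [mem_filter]
    constructor
    · rintro ⟨⟨hj, _⟩, h⟩
      exact ⟨hj, h⟩
    · rintro ⟨hj, h⟩
      exact ⟨⟨hj, by omega⟩, h⟩
  have e2 : (s.filter (fun j => ¬ c j = 1)).filter (fun j => ¬ c j = 2)
      = s.filter (fun j => c j ≠ 1 ∧ c j ≠ 2) := by
    ext j
    simp only [mem_filter, ne_eq, and_assoc]
  rw [e1, e2] at h2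
  omega

/-- Equal hole counts at the row `l` give equal numbers of columns of each sum in row `l`. -/
theorem count_row {n : ℕ} {r : Fin 3 → ℕ} {c : Fin n → ℕ} (x y : Om 3 n r c) (l : Fin 3)
    (h : hcnt c x.1 l = hcnt c y.1 l) (a : ℕ) :
    ((x.1 l).filter (fun j => c j = a)).card = ((y.1 l).filter (fun j => c j = a)).card := by
  have hx2 := card_two_add_hcnt x l
  have hy2 := card_two_add_hcnt y l
  have h2 : ((x.1 l).filter (fun j => c j = 2)).card = ((y.1 l).filter (fun j => c j = 2)).card := by
    omega
  by_cases ha2 : a = 2
  · subst ha2
    exact h2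
  by_cases ha1 : a = 1
  · subst ha1
    have sx := card_row_split c (x.1 l)
    have sy := card_row_split c (y.1 l)
    have e : (x.1 l).filter (fun j => c j ≠ 1 ∧ c j ≠ 2)
        = (y.1 l).filter (fun j => c j ≠ 1 ∧ c j ≠ 2) := by
      ext j
      simp only [mem_filter]
      constructor
      · rintro ⟨hj, h1, h2'⟩
        exact ⟨(mem_iff_of_ne x y l j h1 h2').mp hj, h1, h2'⟩
      · rintro ⟨hj, h1, h2'⟩
        exact ⟨(mem_iff_of_ne x y l j h1 h2').mpr hj, h1, h2'⟩
    rw [e] at sx
    have rx := x.2.1 l
    have ry := y.2.1 l
    omega
  · have e : (x.1 l).filter (fun j => c j = a) = (y.1 l).filter (fun j => c j = a) := by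
      ext j
      simp only [mem_filter]
      constructor
      · rintro ⟨hj, hja⟩
        exact ⟨(mem_iff_of_ne x y l j (by omega) (by omega)).mp hj, hja⟩
      · rintro ⟨hj, hja⟩
        exact ⟨(mem_iff_of_ne x y l j (by omega) (by omega)).mpr hj, hja⟩
    rw [e]

/-- The subsets of `Fin 3` are the empty set, the full set, the singletons and their
complements. -/
theorem fin3_subsets (t : Finset (Fin 3)) :
    t = ∅ ∨ t = univ ∨ (∃ l, t = {l}) ∨ (∃ l, t = {l}ᶜ) := by
  revert t
  decide

/-- Equal hole counts at all rows give equal numbers of columns of each type. -/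
theorem count_type {n : ℕ} {r : Fin 3 → ℕ} {c : Fin n → ℕ} (x y : Om 3 n r c)
    (h : ∀ l, hcnt c x.1 l = hcnt c y.1 l) (t : Finset (Fin 3)) :
    (univ.filter (fun j => univ.filter (fun i => j ∈ x.1 i) = t)).card
      = (univ.filter (fun j => univ.filter (fun i => j ∈ y.1 i) = t)).card := by
  have hcs : ∀ (z : Om 3 n r c) (j : Fin n), (univ.filter (fun i => j ∈ z.1 i)).card = c j :=
    fun z j => z.2.2 j
  rcases fin3_subsets t with rfl | rfl | ⟨l, rfl⟩ | ⟨l, rfl⟩
  · have key : ∀ z : Om 3 n r c, univ.filter (fun j => univ.filter (fun i => j ∈ z.1 i) = ∅)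
        = univ.filter (fun j => c j = 0) := by
      intro z
      ext j
      simp only [mem_filter, mem_univ, true_and]
      rw [← Finset.card_eq_zero, hcs z j]
    rw [key x, key y]
  · have key : ∀ z : Om 3 n r c, univ.filter (fun j => univ.filter (fun i => j ∈ z.1 i) = univ)
        = univ.filter (fun j => c j = 3) := by
      intro z
      ext j
      simp only [mem_filter, mem_univ, true_and]
      rw [← Finset.card_eq_iff_eq_univ, hcs z j, Fintype.card_fin]
    rw [key x, key y]
  · have key : ∀ z : Om 3 n r c, univ.filter (fun j => univ.filter (fun i => j ∈ z.1 i) = {l})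
        = (z.1 l).filter (fun j => c j = 1) := by
      intro z
      ext j
      simp only [mem_filter, mem_univ, true_and]
      constructor
      · intro hj
        have hc1 : c j = 1 := by
          rw [← hcs z j, hj, card_singleton]
        have hl : l ∈ univ.filter (fun i => j ∈ z.1 i) := by
          rw [hj]
          exact mem_singleton_self l
        simp only [mem_filter, mem_univ, true_and] at hl
        exact ⟨hl, hc1⟩
      · rintro ⟨hl, hc1⟩
        symm
        apply Finset.eq_of_subset_of_card_le
        · intro i hi
          rw [mem_singleton] at hi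
          subst hi
          simp only [mem_filter, mem_univ, true_and]
          exact hl
        · rw [hcs z j, hc1, card_singleton]
    rw [key x, key y]
    exact count_row x y l (h l) 1
  · have key : ∀ z : Om 3 n r c, univ.filter (fun j => univ.filter (fun i => j ∈ z.1 i) = {l}ᶜ)
        = univ.filter (fun j => c j = 2 ∧ j ∉ z.1 l) := by
      intro z
      have hcard : (({l} : Finset (Fin 3))ᶜ).card = 2 := by
        rw [card_compl, card_singleton, Fintype.card_fin]
      ext j
      simp only [mem_filter, mem_univ, true_and]
      constructor
      · intro hj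
        have hc2 : c j = 2 := by
          rw [← hcs z j, hj, hcard]
        have hl : l ∉ univ.filter (fun i => j ∈ z.1 i) := by
          rw [hj]
          simp only [mem_compl, mem_singleton, not_true_eq_false, not_false_eq_true]
        simp only [mem_filter, mem_univ, true_and] at hl
        exact ⟨hc2, hl⟩
      · rintro ⟨hc2, hl⟩
        apply Finset.eq_of_subset_of_card_le
        · intro i hi
          simp only [mem_filter, mem_univ, true_and] at hi
          simp only [mem_compl, mem_singleton]
          rintro rfl
          exact hl hi
        · rw [hcs z j, hc2, hcard]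
    rw [key x, key y]
    exact h l

end H63

open H63 in
/-- Functions on three-row margin matrices that are invariant under all transpositions of
equal-sum columns depend only on the hole counts; their one-row conditional expectations depend
only on the hole count of that row. -/
theorem inv_factor {n : ℕ} {r : Fin 3 → ℕ} {c : Fin n → ℕ} (F : Om 3 n r c → ℝ)
    (hinv : ∀ (u u' : Fin n) (h : c u = c u') (x : Om 3 n r c), F (swapOm u u' h x) = F x) :
    (∀ x y : Om 3 n r c, (∀ l, hcnt c x.1 l = hcnt c y.1 l) → F x = F y) ∧
    (∀ (l : Fin 3) (x y : Om 3 n r c), hcnt c x.1 l = hcnt c y.1 l →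
        R (univ.erase l) F x = R (univ.erase l) F y) := by
  constructor
  · intro x y hxy
    obtain ⟨y', hy', hF⟩ := swap_chain
      (fun (z : Om 3 n r c) (j : Fin n) => univ.filter (fun i => j ∈ z.1 i))
      (by
        intro u u' h z j
        ext i
        simp only [mem_filter, mem_univ, true_and, swapOm_val, mem_swapCols])
      (by
        intro z w u u' huu
        have := congrArg Finset.card huu
        rw [← z.2.2 u, ← w.2.2 u']
        exact this)
      F hinv x _ y le_rfl (count_type x y hxy)
    have hyx : y' = x := by
      apply Subtype.ext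
      funext i
      ext j
      have hj := congrFun hy' j
      have hi : i ∈ univ.filter (fun i => j ∈ y'.1 i) ↔ i ∈ univ.filter (fun i => j ∈ x.1 i) := by
        rw [hj]
      simpa only [mem_filter, mem_univ, true_and] using hi
    rw [← hF, hyx]
  · intro l x y hxy
    have hG : ∀ (u u' : Fin n) (h : c u = c u') (z : Om 3 n r c),
        R (univ.erase l) F (swapOm u u' h z) = R (univ.erase l) F z := by
      intro u u' h z
      have h1 := R_swapOm (univ.erase l) u u' h F
      have h2 : F ∘ swapOm u u' h = F := funext (fun w => hinv u u' h w)
      rw [h2] at h1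
      exact (congrFun h1 z).symm
    have hcount : ∀ k : ℕ × Bool,
        (univ.filter (fun j => (c j, decide (j ∈ x.1 l)) = k)).card
          = (univ.filter (fun j => (c j, decide (j ∈ y.1 l)) = k)).card := by
      rintro ⟨a, b⟩
      have hrow := count_row x y l hxy a
      have keyT : ∀ z : Om 3 n r c, univ.filter (fun j => (c j, decide (j ∈ z.1 l)) = (a, true))
          = (z.1 l).filter (fun j => c j = a) := by
        intro z
        ext j
        simp only [mem_filter, mem_univ, true_and, Prod.mk.injEq, decide_eq_true_eq]
        tauto
      have keyF : ∀ z : Om 3 n r c,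
          (univ.filter (fun j => (c j, decide (j ∈ z.1 l)) = (a, false))).card
            + ((z.1 l).filter (fun j => c j = a)).card = ncol c a := by
        intro z
        have hs := Finset.card_filter_add_card_filter_not
          (s := univ.filter (fun j : Fin n => c j = a)) (fun j => j ∈ z.1 l)
        have e1 : (univ.filter (fun j : Fin n => c j = a)).filter (fun j => j ∈ z.1 l)
            = (z.1 l).filter (fun j => c j = a) := by
          ext j
          simp only [mem_filter, mem_univ, true_and]
          tauto
        have e2 : (univ.filter (fun j : Fin n => c j = a)).filter (fun j => ¬ j ∈ z.1 l)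
            = univ.filter (fun j => (c j, decide (j ∈ z.1 l)) = (a, false)) := by
          ext j
          simp only [mem_filter, mem_univ, true_and, Prod.mk.injEq, decide_eq_false_iff_not]
        rw [e1, e2] at hs
        unfold ncol
        omega
      cases b with
      | true => rw [keyT x, keyT y]; exact hrow
      | false =>
        have kx := keyF x
        have ky := keyF y
        omega
    obtain ⟨y', hy', hF⟩ := swap_chain
      (fun (z : Om 3 n r c) (j : Fin n) => (c j, decide (j ∈ z.1 l)))
      (by
        intro u u' h z j
        have hcj : c (Equiv.swap u u' j) = c j := by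
          rcases eq_or_ne j u with rfl | hju
          · rw [Equiv.swap_apply_left, h]
          · rcases eq_or_ne j u' with rfl | hju'
            · rw [Equiv.swap_apply_right, h]
            · rw [Equiv.swap_apply_of_ne_of_ne hju hju']
        simp only [swapOm_val, mem_swapCols, hcj])
      (by
        intro z w u u' huu
        exact congrArg Prod.fst huu)
      (R (univ.erase l) F) hG x _ y le_rfl hcount
    have hrow : y'.1 l = x.1 l := by
      ext j
      have hj := congrFun hy' j
      have hj2 := congrArg Prod.snd hj
      simpa only [decide_eq_decide] using hj2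
    have hmask : mask (univ.erase l) y'.1 = mask (univ.erase l) x.1 := by
      funext i
      unfold mask
      by_cases hi : i ∈ univ.erase l
      · rw [if_pos hi, if_pos hi]
      · rw [if_neg hi, if_neg hi]
        have hil : i = l := by
          by_contra hne
          exact hi (mem_erase.mpr ⟨hne, mem_univ i⟩)
        rw [hil]
        exact hrow
    have hcongr : R (univ.erase l) F y' = R (univ.erase l) F x := by
      unfold R
      exact cexp_congr (fun z : Om 3 n r c => mask (univ.erase l) z.1) hmask F
    rw [← hF, hcongr]

end Vale.Agent.Lib.P335.Bip
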