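import Mathlib
import Vale.Agent.Lib.P335.helper85.TauDefs

/-!
The SUM step of the graph case of P335: the pairwise inequality for all pairs of disjoint
vertex pairs together with the Johnson-fibre inequality `(J)` for every vertex pair gives the
lower bound `S_par ≥ c H` for the sum of the products of disjoint pair projections
(`c = 0`: weak form, `c = 1`: sharp form).  The statement is abstract in the switch involution
`tau` and in the correction term `K`, so that it fits any definition of these.
-/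

namespace Vale.Agent.Lib.P335.H63

open Finset
open scoped Classical
open Vale.Agent.Lib.P335 Vale.Agent.Lib.P335.Bip Vale.Agent.Lib.P335.Gr

/-- A sum over ordered pairs of distinct elements is twice the sum over the `2`-subsets. -/
theorem sum_pairs_ordered {α : Type*} [Fintype α] [DecidableEq α] (g : Finset α → ℝ) :
    ∑ x : α, ∑ y : α, (if x ≠ y then g {x, y} else 0)
      = 2 * ∑ p ∈ (univ : Finset α).powersetCard 2, g p := by
  have h1 : ∑ x : α, ∑ y : α, (if x ≠ y then g {x, y} else 0)
      = ∑ t ∈ (univ : Finset (α × α)).filter (fun t => t.1 ≠ t.2), g {t.1, t.2} := by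
    rw [Finset.sum_filter, ← Finset.univ_product_univ, Finset.sum_product]
  have hmaps : ∀ t ∈ (univ : Finset (α × α)).filter (fun t => t.1 ≠ t.2),
      ({t.1, t.2} : Finset α) ∈ (univ : Finset α).powersetCard 2 := by
    intro t ht
    rw [mem_filter] at ht
    rw [mem_powersetCard]
    exact ⟨subset_univ _, card_pair ht.2⟩
  rw [h1, ← Finset.sum_fiberwise_of_maps_to hmaps, Finset.mul_sum]
  refine Finset.sum_congr rfl (fun p hp => ?_)
  rw [mem_powersetCard] at hp
  obtain ⟨a, b, hab, rfl⟩ := Finset.card_eq_two.mp hp.2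
  have hfib : ((univ : Finset (α × α)).filter (fun t => t.1 ≠ t.2)).filter
      (fun t => ({t.1, t.2} : Finset α) = {a, b}) = {(a, b), (b, a)} := by
    ext ⟨x, y⟩
    simp only [mem_filter, mem_univ, true_and, mem_insert, mem_singleton, Prod.mk.injEq]
    constructor
    · rintro ⟨hxy, he⟩
      have hx : x ∈ ({a, b} : Finset α) := by
        rw [← he]
        exact mem_insert_self x {y}
      have hy : y ∈ ({a, b} : Finset α) := by
        rw [← he]
        exact mem_insert_of_mem (mem_singleton_self y)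
      rw [mem_insert, mem_singleton] at hx hy
      rcases hx with hx | hx <;> rcases hy with hy | hy
      · exact absurd (hx.trans hy.symm) hxy
      · exact Or.inl ⟨hx, hy⟩
      · exact Or.inr ⟨hx, hy⟩
      · exact absurd (hx.trans hy.symm) hxy
    · rintro (⟨rfl, rfl⟩ | ⟨rfl, rfl⟩)
      · exact ⟨hab, rfl⟩
      · exact ⟨hab.symm, Finset.pair_comm _ _⟩
  have hne : (a, b) ≠ (b, a) := by
    intro h
    exact hab (Prod.mk.injEq a b b a ▸ h).1
  rw [hfib, Finset.sum_pair hne]
  have e : ({b, a} : Finset α) = {a, b} := Finset.pair_comm _ _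
  simp only [e]
  ring

theorem disjoint_pair_iff {α : Type*} [DecidableEq α] (x y z w : α) :
    Disjoint ({x, y} : Finset α) {z, w} ↔ x ≠ z ∧ x ≠ w ∧ y ≠ z ∧ y ≠ w := by
  rw [Finset.disjoint_insert_left, Finset.disjoint_singleton_left, mem_insert, mem_singleton,
    mem_insert, mem_singleton]
  tauto

theorem sum4_comm {α : Type*} [Fintype α] (F : α → α → α → α → ℝ) :
    ∑ x, ∑ y, ∑ z, ∑ w, F x y z w = ∑ z, ∑ w, ∑ x, ∑ y, F x y z w := by
  have e1 : ∑ x, ∑ y, ∑ z, ∑ w, F x y z w
      = ∑ a : α × α, ∑ b : α × α, F a.1 a.2 b.1 b.2 := by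
    rw [Fintype.sum_prod_type]
    refine Finset.sum_congr rfl (fun x _ => Finset.sum_congr rfl (fun y _ => ?_))
    rw [Fintype.sum_prod_type]
  have e2 : ∑ z, ∑ w, ∑ x, ∑ y, F x y z w
      = ∑ b : α × α, ∑ a : α × α, F a.1 a.2 b.1 b.2 := by
    rw [Fintype.sum_prod_type]
    refine Finset.sum_congr rfl (fun z _ => Finset.sum_congr rfl (fun w _ => ?_))
    rw [Fintype.sum_prod_type]
  rw [e1, e2, Finset.sum_comm]

variable {n : ℕ} {d : Fin n → ℕ}

/-- Reindexing of the sum over ordered pairs of disjoint `2`-subsets by ordered quadruples of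
pairwise distinct vertices: every pair of disjoint `2`-subsets is counted four times. -/
theorem sum_four_eq (A : Finset (Fin n) → Finset (Fin n) → ℝ) :
    ∑ x, ∑ y, ∑ z, ∑ w, (if H85.Four x y z w then A {x, y} {z, w} else 0)
      = 4 * ∑ p ∈ (univ : Finset (Fin n)).powersetCard 2,
          ∑ q ∈ (univ : Finset (Fin n)).powersetCard 2, (if Disjoint p q then A p q else 0) := by
  have inner : ∀ p : Finset (Fin n),
      ∑ z, ∑ w, (if z ≠ w then (if Disjoint p {z, w} then A p {z, w} else 0) else 0)
        = 2 * ∑ q ∈ (univ : Finset (Fin n)).powersetCard 2,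
            (if Disjoint p q then A p q else 0) :=
    fun p => sum_pairs_ordered (fun q => if Disjoint p q then A p q else 0)
  have outer := sum_pairs_ordered (fun p : Finset (Fin n) =>
    ∑ q ∈ (univ : Finset (Fin n)).powersetCard 2, (if Disjoint p q then A p q else 0))
  have step : ∀ x y : Fin n,
      ∑ z, ∑ w, (if H85.Four x y z w then A {x, y} {z, w} else 0)
        = if x ≠ y then 2 * ∑ q ∈ (univ : Finset (Fin n)).powersetCard 2,
            (if Disjoint ({x, y} : Finset (Fin n)) q then A {x, y} q else 0) else 0 := by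
    intro x y
    by_cases hxy : x = y
    · rw [if_neg (not_not.mpr hxy)]
      refine Finset.sum_eq_zero (fun z _ => Finset.sum_eq_zero (fun w _ => ?_))
      rw [if_neg]
      intro h4
      exact h4.xy hxy
    · rw [if_pos hxy, ← inner]
      refine Finset.sum_congr rfl (fun z _ => Finset.sum_congr rfl (fun w _ => ?_))
      by_cases h4 : H85.Four x y z w
      · rw [if_pos h4, if_pos h4.zw,
          if_pos ((disjoint_pair_iff x y z w).mpr ⟨h4.xz, h4.xw, h4.yz, h4.yw⟩)]
      · rw [if_neg h4]
        by_cases hzw : z = w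
        · rw [if_neg (not_not.mpr hzw)]
        · rw [if_pos hzw, if_neg]
          intro hd
          obtain ⟨a, b, c, e⟩ := (disjoint_pair_iff x y z w).mp hd
          exact h4 ⟨hxy, a, b, c, e, hzw⟩
  calc ∑ x, ∑ y, ∑ z, ∑ w, (if H85.Four x y z w then A {x, y} {z, w} else 0)
      = ∑ x, ∑ y, (if x ≠ y then 2 * ∑ q ∈ (univ : Finset (Fin n)).powersetCard 2,
            (if Disjoint ({x, y} : Finset (Fin n)) q then A {x, y} q else 0) else 0) :=
        Finset.sum_congr rfl (fun x _ => Finset.sum_congr rfl (fun y _ => step x y))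
    _ = 2 * ∑ x, ∑ y, (if x ≠ y then ∑ q ∈ (univ : Finset (Fin n)).powersetCard 2,
            (if Disjoint ({x, y} : Finset (Fin n)) q then A {x, y} q else 0) else 0) := by
        rw [Finset.mul_sum]
        refine Finset.sum_congr rfl (fun x _ => ?_)
        rw [Finset.mul_sum]
        refine Finset.sum_congr rfl (fun y _ => ?_)
        by_cases hxy : x = y
        · rw [if_neg (not_not.mpr hxy), if_neg (not_not.mpr hxy), mul_zero]
        · rw [if_pos hxy, if_pos hxy]
    _ = 4 * ∑ p ∈ (univ : Finset (Fin n)).powersetCard 2,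
          ∑ q ∈ (univ : Finset (Fin n)).powersetCard 2, (if Disjoint p q then A p q else 0) := by
        rw [outer]
        ring

/-- **SUM step.**  Let `tau x y z w` and `K x y z w` be any maps such that
* (`hpw`, pairwise inequality) for pairwise distinct `x y z w`:
  `(1/4) ∑_G (f G - f (tau x y z w G))^2 - (1/2) K x y z w f - (1/2) K z w x y f
     ≤ ⟨f - R_{xy} f, f - R_{zw} f⟩`;
* (`hJ`, Johnson-fibre inequality with constant `c`) for `x ≠ y`:
  `∑_{(z,w)} K x y z w f + 2 c (⟨f, f⟩ - ⟨f, R_{xy} f⟩) ≤ (1/4) ∑_{(z,w)} ∑_G (f G - f (tau x y z w G))^2`,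
  the sums over the ordered pairs `(z, w)` with `x y z w` pairwise distinct.
Then `c ∑_p (⟨f, f⟩ - ⟨f, R_p f⟩) ≤ ∑_{p, q disjoint} ⟨f - R_p f, f - R_q f⟩`. -/
theorem sum_step
    (tau : Fin n → Fin n → Fin n → Fin n → Omega n d → Omega n d)
    (K : Fin n → Fin n → Fin n → Fin n → (Omega n d → ℝ) → ℝ) (c : ℝ)
    (hpw : ∀ x y z w : Fin n, H85.Four x y z w → ∀ f : Omega n d → ℝ,
      (1 / 4 : ℝ) * ∑ G, (f G - f (tau x y z w G)) ^ 2 - (1 / 2) * K x y z w f
        - (1 / 2) * K z w x y f ≤ ip (f - GR {x, y} f) (f - GR {z, w} f))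
    (hJ : ∀ x y : Fin n, x ≠ y → ∀ f : Omega n d → ℝ,
      ∑ z, ∑ w, (if H85.Four x y z w then K x y z w f else 0)
          + 2 * c * (ip f f - ip f (GR {x, y} f))
        ≤ (1 / 4 : ℝ) * ∑ z, ∑ w,
            (if H85.Four x y z w then ∑ G, (f G - f (tau x y z w G)) ^ 2 else 0))
    (f : Omega n d → ℝ) :
    c * ∑ p ∈ (univ : Finset (Fin n)).powersetCard 2, (ip f f - ip f (GR p f)) ≤
      ∑ p ∈ (univ : Finset (Fin n)).powersetCard 2,
        ∑ q ∈ (univ : Finset (Fin n)).powersetCard 2,
          (if Disjoint p q then ip (f - GR p f) (f - GR q f) else 0) := by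
  -- the four quadruple sums
  have hA := sum_four_eq (fun p q : Finset (Fin n) => ip (f - GR p f) (f - GR q f))
  -- pointwise pairwise inequality
  have h2 : ∑ x, ∑ y, ∑ z, ∑ w, (if H85.Four x y z w then
        ((1 / 4 : ℝ) * ∑ G, (f G - f (tau x y z w G)) ^ 2 - (1 / 2) * K x y z w f
          - (1 / 2) * K z w x y f) else 0)
      ≤ ∑ x, ∑ y, ∑ z, ∑ w,
          (if H85.Four x y z w then ip (f - GR {x, y} f) (f - GR {z, w} f) else 0) := by
    refine Finset.sum_le_sum (fun x _ => Finset.sum_le_sum (fun y _ =>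
      Finset.sum_le_sum (fun z _ => Finset.sum_le_sum (fun w _ => ?_))))
    by_cases h4 : H85.Four x y z w
    · rw [if_pos h4, if_pos h4]
      exact hpw x y z w h4 f
    · rw [if_neg h4, if_neg h4]
  -- splitting of the left-hand side
  have hsplit : ∑ x, ∑ y, ∑ z, ∑ w, (if H85.Four x y z w then
        ((1 / 4 : ℝ) * ∑ G, (f G - f (tau x y z w G)) ^ 2 - (1 / 2) * K x y z w f
          - (1 / 2) * K z w x y f) else 0)
      = (1 / 4 : ℝ) * ∑ x, ∑ y, ∑ z, ∑ w,
            (if H85.Four x y z w then ∑ G, (f G - f (tau x y z w G)) ^ 2 else 0)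
        - (1 / 2) * ∑ x, ∑ y, ∑ z, ∑ w, (if H85.Four x y z w then K x y z w f else 0)
        - (1 / 2) * ∑ x, ∑ y, ∑ z, ∑ w, (if H85.Four x y z w then K z w x y f else 0) := by
    simp only [Finset.mul_sum, ← Finset.sum_sub_distrib]
    refine Finset.sum_congr rfl (fun x _ => Finset.sum_congr rfl (fun y _ =>
      Finset.sum_congr rfl (fun z _ => Finset.sum_congr rfl (fun w _ => ?_))))
    by_cases h4 : H85.Four x y z w
    · simp only [if_pos h4]
      rw [Finset.mul_sum]
    · simp only [if_neg h4]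
      ring
  -- the two correction sums agree
  have hswap : ∑ x, ∑ y, ∑ z, ∑ w, (if H85.Four x y z w then K z w x y f else 0)
      = ∑ x, ∑ y, ∑ z, ∑ w, (if H85.Four x y z w then K x y z w f else 0) := by
    rw [sum4_comm]
    refine Finset.sum_congr rfl (fun x _ => Finset.sum_congr rfl (fun y _ =>
      Finset.sum_congr rfl (fun z _ => Finset.sum_congr rfl (fun w _ => ?_))))
    by_cases h4 : H85.Four x y z w
    · rw [if_pos h4, if_pos (H85.four_comm h4)]
    · rw [if_neg h4, if_neg (fun h => h4 (H85.four_comm h))]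
  -- the Johnson inequality summed over the ordered pairs (x, y)
  have hJsum : ∑ x, ∑ y, ∑ z, ∑ w, (if H85.Four x y z w then K x y z w f else 0)
        + 2 * c * ∑ x : Fin n, ∑ y : Fin n,
            (if x ≠ y then (ip f f - ip f (GR {x, y} f)) else 0)
      ≤ (1 / 4 : ℝ) * ∑ x, ∑ y, ∑ z, ∑ w,
            (if H85.Four x y z w then ∑ G, (f G - f (tau x y z w G)) ^ 2 else 0) := by
    rw [Finset.mul_sum, Finset.mul_sum, ← Finset.sum_add_distrib]
    refine Finset.sum_le_sum (fun x _ => ?_)
    rw [Finset.mul_sum, Finset.mul_sum, ← Finset.sum_add_distrib]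
    refine Finset.sum_le_sum (fun y _ => ?_)
    by_cases hxy : x = y
    · have z1 : ∑ z, ∑ w, (if H85.Four x y z w then K x y z w f else 0) = 0 :=
        Finset.sum_eq_zero (fun z _ => Finset.sum_eq_zero (fun w _ =>
          if_neg (fun h => h.xy hxy)))
      have z2 : ∑ z, ∑ w,
          (if H85.Four x y z w then ∑ G, (f G - f (tau x y z w G)) ^ 2 else 0) = 0 :=
        Finset.sum_eq_zero (fun z _ => Finset.sum_eq_zero (fun w _ =>
          if_neg (fun h => h.xy hxy)))
      rw [z1, z2, if_neg (not_not.mpr hxy)]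
      simp
    · rw [if_pos hxy]
      exact hJ x y hxy f
  have hpairs := sum_pairs_ordered (fun p : Finset (Fin n) => ip f f - ip f (GR p f))
  rw [hpairs] at hJsum
  rw [hsplit, hswap] at h2
  rw [hA] at h2
  linarith

end Vale.Agent.Lib.P335.H63
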