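import Mathlib
import Vale.Agent.Lib.P335.helper45.PairDefs
import Vale.Agent.Lib.P335.helper85.TauDefs

/-!
Bridge between the two definitions of the switch involution and of the correction term `K`
used in the graph case of P335:

* `H45G.tauG`, `H45G.tau`, `H45G.Sep`, `H45G.GRX`, `H45G.K` (helper45, `PairDefs.lean`);
* `H85.tauG`, `H85.tau`, `H85.kapX`, `H85.K` (helper85, `TauDefs.lean`).

For pairwise distinct `x y z w` they coincide.
-/

namespace Vale.Agent.Lib.P335.H63

open Finset
open scoped Classical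
open Vale.Agent.Lib.P335 Vale.Agent.Lib.P335.Bip Vale.Agent.Lib.P335.Gr

variable {n : ℕ}

/-- Two conditioning maps with the same fibres give the same conditional expectation. -/
theorem cexp_same_fibres {Ω K K' : Type*} [Fintype Ω] [DecidableEq K] [DecidableEq K']
    (κ : Ω → K) (κ' : Ω → K') (h : ∀ x y, κ x = κ y ↔ κ' x = κ' y) (f : Ω → ℝ) :
    cexp κ f = cexp κ' f := by
  funext x
  rw [cexp_apply, cexp_apply]
  have e : univ.filter (fun y => κ y = κ x) = univ.filter (fun y => κ' y = κ' x) := by
    ext y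
    simp only [mem_filter, mem_univ, true_and]
    exact h y x
  rw [e]

/-- `Sep` is the disjunction of the two matchings. -/
theorem sep_iff (x y z w : Fin n) (G : SimpleGraph (Fin n)) :
    H45G.Sep x y z w G ↔ H85.Mat1 x y z w G ∨ H85.Mat1 x y w z G := Iff.rfl

/-- The two graph-level switches coincide for pairwise distinct vertices. -/
theorem tauG_eq {x y z w : Fin n} (h4 : H85.Four x y z w) (G : SimpleGraph (Fin n)) :
    H45G.tauG x y z w G = H85.tauG x y z w G := by
  ext a b
  rw [H45G.tauG_adj]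
  have key : ∀ p q : Fin n, s(a, b) = s(p, q) → (G.Adj a b ↔ G.Adj p q) := by
    intro p q h
    rw [← SimpleGraph.mem_edgeSet, ← SimpleGraph.mem_edgeSet, h]
  have k1 := key x z
  have k2 := key y w
  have k3 := key x w
  have k4 := key y z
  have hne : G.Adj a b → a ≠ b := fun h => G.ne_of_adj h
  obtain ⟨hxy, hxz, hxw, hyz, hyw, hzw⟩ := h4
  by_cases c1 : H85.Mat1 x y z w G
  · rw [H85.tauG_pos c1, H85.swG_adj G hxw hyz.symm]
    have hS : H45G.Sep x y z w G := Or.inl c1
    obtain ⟨a1, a2, a3, a4⟩ := c1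
    unfold H45G.IsCross
    simp only [Sym2.eq_iff, ne_eq] at k1 k2 k3 k4 ⊢
    grind
  · by_cases c2 : H85.Mat1 x y w z G
    · rw [H85.tauG_pos' c2, H85.swG_adj G hxz hyw.symm]
      have hS : H45G.Sep x y z w G := Or.inr c2
      obtain ⟨a1, a2, a3, a4⟩ := c2
      unfold H45G.IsCross
      simp only [Sym2.eq_iff, ne_eq] at k1 k2 k3 k4 ⊢
      grind
    · rw [H85.tauG_neg c1 c2]
      have hS : ¬ H45G.Sep x y z w G := by
        rw [sep_iff]
        tauto
      constructor
      · rintro ⟨-, h⟩
        exact h.mpr (fun h' => hS h'.1)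
      · intro h
        exact ⟨hne h, fun _ => fun h' => hS h'.1, fun _ => h⟩

variable {d : Fin n → ℕ}

/-- The two switch involutions on `Omega n d` coincide for pairwise distinct vertices. -/
theorem tau_eq {x y z w : Fin n} (h4 : H85.Four x y z w) (G : Omega n d) :
    H45G.tau x y z w G = H85.tau x y z w G := by
  have e := tauG_eq h4 G.1
  have h : ∀ v, (H45G.tauG x y z w G.1).degree v = d v := by
    intro v
    rw [e]
    exact (H85.tauG_degree h4 G.1 v).trans (G.2 v)
  apply Subtype.ext
  unfold H45G.tau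
  rw [dif_pos h, H85.tau_val h4]
  exact e

/-- `Sep` holds exactly when the switch moves the graph. -/
theorem sep_iff_moved {x y z w : Fin n} (h4 : H85.Four x y z w) (G : Omega n d) :
    H45G.Sep x y z w G.1 ↔ H85.tau x y z w G ≠ G := by
  rw [Ne, H85.tau_eq_self_iff h4 G, sep_iff]
  tauto

/-- The two conditional expectations given `G - {x, y}` and the event of being moved coincide. -/
theorem GRX_eq {x y z w : Fin n} (h4 : H85.Four x y z w) (f : Omega n d → ℝ) :
    H45G.GRX x y z w f = cexp (H85.kapX (d := d) x y z w) f := by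
  unfold H45G.GRX
  apply cexp_same_fibres
  intro G G'
  unfold H85.kapX
  simp only [Prod.mk.injEq, decide_eq_decide]
  rw [sep_iff_moved h4 G, sep_iff_moved h4 G']
  constructor
  · rintro ⟨h1, h2⟩
    exact ⟨h1, by rw [h2]⟩
  · rintro ⟨h1, h2⟩
    exact ⟨h1, propext h2⟩

/-- The two correction terms coincide for pairwise distinct vertices. -/
theorem K_eq {x y z w : Fin n} (h4 : H85.Four x y z w) (f : Omega n d → ℝ) :
    H45G.K x y z w f = H85.K x y z w f := by
  unfold H45G.K H85.K
  refine Finset.sum_congr rfl (fun G _ => ?_)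
  rw [GRX_eq h4 f]
  by_cases hS : H45G.Sep x y z w G.1
  · rw [if_pos hS, if_pos ((sep_iff_moved h4 G).mp hS)]
  · rw [if_neg hS, if_neg (fun h => hS ((sep_iff_moved h4 G).mpr h))]

/-- The pairwise inequality in the form of helper45 implies the form stated with the
definitions of helper85. -/
theorem pairwise_bridge {x y z w : Fin n} (h4 : H85.Four x y z w) (f : Omega n d → ℝ)
    (h : (1 / 4 : ℝ) * ∑ G, (f G - f (H45G.tau x y z w G)) ^ 2 - (1 / 2) * H45G.K x y z w f
        - (1 / 2) * H45G.K z w x y f ≤ ip (f - GR {x, y} f) (f - GR {z, w} f)) :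
    (1 / 4 : ℝ) * ∑ G, (f G - f (H85.tau x y z w G)) ^ 2 - (1 / 2) * H85.K x y z w f
        - (1 / 2) * H85.K z w x y f ≤ ip (f - GR {x, y} f) (f - GR {z, w} f) := by
  have e1 : ∑ G, (f G - f (H45G.tau x y z w G)) ^ 2 = ∑ G, (f G - f (H85.tau x y z w G)) ^ 2 :=
    Finset.sum_congr rfl (fun G _ => by rw [tau_eq h4 G])
  rw [e1, K_eq h4 f, K_eq (H85.four_comm h4) f] at h
  exact h

end Vale.Agent.Lib.P335.H63
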