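import Mathlib
import Vale.Agent.Lib.P335.helper63.TauBridge
import Vale.Agent.Lib.P335.helper63.SumStep

/-!
The SUM step of the graph case of P335, specialised: the pairwise inequality in the form of
helper45 (`H45G.tau`, `H45G.K`) and the Johnson-fibre inequality in the form of helper85
(`H85.tau`, `H85.K`) give `S_par ≥ c H`, the hypothesis `hpar` of the graph assembly.
-/

namespace Vale.Agent.Lib.P335.H63

open Finset
open scoped Classical
open Vale.Agent.Lib.P335 Vale.Agent.Lib.P335.Bip Vale.Agent.Lib.P335.Gr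

variable {n : ℕ} {d : Fin n → ℕ}

/-- `S_par ≥ c H` from the pairwise inequality (helper45's definitions) and the Johnson-fibre
inequality (helper85's definitions). -/
theorem hpar_of_pairwise_J (c : ℝ)
    (hpw : ∀ x y z w : Fin n, x ≠ y → x ≠ z → x ≠ w → y ≠ z → y ≠ w → z ≠ w →
      ∀ f : Omega n d → ℝ,
      (1 / 4 : ℝ) * ∑ G, (f G - f (H45G.tau x y z w G)) ^ 2 - (1 / 2) * H45G.K x y z w f
        - (1 / 2) * H45G.K z w x y f ≤ ip (f - GR {x, y} f) (f - GR {z, w} f))
    (hJ : ∀ x y : Fin n, x ≠ y → ∀ f : Omega n d → ℝ,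
      ∑ z, ∑ w, (if H85.Four x y z w then H85.K x y z w f else 0)
          + 2 * c * (ip f f - ip f (GR {x, y} f))
        ≤ (1 / 4 : ℝ) * ∑ z, ∑ w,
            (if H85.Four x y z w then ∑ G, (f G - f (H85.tau x y z w G)) ^ 2 else 0))
    (f : Omega n d → ℝ) :
    c * ∑ p ∈ (univ : Finset (Fin n)).powersetCard 2, (ip f f - ip f (GR p f)) ≤
      ∑ p ∈ (univ : Finset (Fin n)).powersetCard 2,
        ∑ q ∈ (univ : Finset (Fin n)).powersetCard 2,
          (if Disjoint p q then ip (f - GR p f) (f - GR q f) else 0) := by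
  refine sum_step (fun x y z w => H85.tau (d := d) x y z w) (fun x y z w => H85.K (d := d) x y z w)
    c ?_ hJ f
  intro x y z w h4 g
  exact pairwise_bridge h4 g (hpw x y z w h4.xy h4.xz h4.xw h4.yz h4.yw h4.zw g)

/-- The weak form `S_par ≥ 0` (the hypothesis `hpar0` of `graph_mixing_weak`). -/
theorem hpar0_of_pairwise_J
    (hpw : ∀ x y z w : Fin n, x ≠ y → x ≠ z → x ≠ w → y ≠ z → y ≠ w → z ≠ w →
      ∀ f : Omega n d → ℝ,
      (1 / 4 : ℝ) * ∑ G, (f G - f (H45G.tau x y z w G)) ^ 2 - (1 / 2) * H45G.K x y z w f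
        - (1 / 2) * H45G.K z w x y f ≤ ip (f - GR {x, y} f) (f - GR {z, w} f))
    (hJ : ∀ x y : Fin n, x ≠ y → ∀ f : Omega n d → ℝ,
      ∑ z, ∑ w, (if H85.Four x y z w then H85.K x y z w f else 0)
        ≤ (1 / 4 : ℝ) * ∑ z, ∑ w,
            (if H85.Four x y z w then ∑ G, (f G - f (H85.tau x y z w G)) ^ 2 else 0))
    (f : Omega n d → ℝ) :
    0 ≤ ∑ p ∈ (univ : Finset (Fin n)).powersetCard 2,
        ∑ q ∈ (univ : Finset (Fin n)).powersetCard 2,
          (if Disjoint p q then ip (f - GR p f) (f - GR q f) else 0) := by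
  have h := hpar_of_pairwise_J (d := d) 0 hpw (by
    intro x y hxy g
    have := hJ x y hxy g
    linarith) f
  linarith

end Vale.Agent.Lib.P335.H63
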